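import Crest.Agent.X262.Tree87.Ses
import Crest.Agent.X262.Emb11.Defs
import Crest.Agent.X262.Node22.Alg
import Crest.Agent.X262.Tr89.Pb
import Crest.Agent.X262.Div34.Spec
import Crest.Agent.X262.Sym65.Defs

-- ▼ part X262/Tree87/Prj
section

/-!
Row 262, Tree87, part Prj: constants, sections proportional to a tuple, projection of trees,
subfamilies of points, homogeneous coefficients.
-/

set_option autoImplicit false
set_option linter.unusedSectionVars false

noncomputable section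

namespace Crest.Agent.X262.Tree87

open Polynomial Crest.Agent.X262.Bub96 Crest.Agent.X262.Bub96.Tr Crest.Agent.X262.Vb
open Crest.Agent.X277 Crest.Agent.X277.BD

/-! ### projection of trees -/

section prj

variable {k : Type} [Field k] {J J' : Type} {io : J → Type} (g : J' → J)

/-- the tree with the factors `g j` -/
def prT : Tr k J io → Tr k J' fun j => io (g j)
  | leaf d f => leaf (fun j => d (g j)) fun j => f (g j)
  | glue T p S => glue (prT T) p (prT S)

/-- the vertices are the same -/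
def prE : (t : Tr k J io) → t.Vx ≃ (prT g t).Vx
  | leaf _ _ => Equiv.refl Unit
  | glue T _ S => Equiv.sumCongr (prE T) (prE S)

theorem prE_root : (t : Tr k J io) → prE g t t.root = (prT g t).root
  | leaf _ _ => rfl
  | glue T _ _ => congrArg Sum.inl (prE_root T)

theorem vd_prT : (t : Tr k J io) → ∀ v, (prT g t).vd (prE g t v) = fun j => t.vd v (g j)
  | leaf _ _, _ => rfl
  | glue T _ _, Sum.inl v => vd_prT T v
  | glue _ _ S, Sum.inr v => vd_prT S v

theorem vg_prT : (t : Tr k J io) → ∀ v, (prT g t).vg (prE g t v) = fun j => t.vg v (g j)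
  | leaf _ _, _ => rfl
  | glue T _ _, Sum.inl v => vg_prT T v
  | glue _ _ S, Sum.inr v => vg_prT S v

theorem hole_prT : (t : Tr k J io) → ∀ v, (prT g t).hole (prE g t v) = t.hole v
  | leaf _ _, _ => rfl
  | glue T p _, Sum.inl v => by
    change {x | x ∈ (prT g T).hole (prE g T v) ∨ (prE g T v = (prT g T).root ∧ x = p)} =
      {x | x ∈ T.hole v ∨ (v = T.root ∧ x = p)}
    rw [hole_prT T v, ← prE_root, (prE g T).apply_eq_iff_eq]
  | glue _ _ S, Sum.inr v => hole_prT S v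

theorem deg_prT : (t : Tr k J io) → (prT g t).deg = fun j => t.deg (g j)
  | leaf _ _ => rfl
  | glue T _ S => by
    change (fun j => (prT g T).deg j + (prT g S).deg j) = _
    rw [deg_prT T, deg_prT S]; rfl

theorem ev_prT (t : Tr k J io) (x : t.Pt) :
    (prT g t).ev (prE g t x.1, x.2) = fun j => t.ev x (g j) := by
  funext j i
  simp only [Tr.ev, vd_prT, vg_prT]

theorem ok_prT : {t : Tr k J io} → t.OK → (prT g t).OK
  | leaf _ _, h => ⟨fun j => h.1 (g j), fun j => h.2 (g j)⟩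
  | glue T p S, h => ⟨ok_prT h.1, ok_prT h.2.1, by rw [← prE_root, hole_prT]; exact h.2.2.1,
      fun j i => by
        rw [← prE_root, ← prE_root, ev_prT g S (S.root, none), ev_prT g T (T.root, some p)]
        exact h.2.2.2 _ i⟩

theorem exists_pt (t : Tr k J io) (x : (prT g t).Pt) : ∃ y : t.Pt, x = (prE g t y.1, y.2) :=
  ⟨((prE g t).symm x.1, x.2), by simp⟩

variable [Fintype J] [Fintype J'] {g} {κ : J' → ℕ} {κ' : J → ℕ}



end prj

variable {J : Type} [Fintype J] [DecidableEq J] {io : J → Type} [∀ j, Fintype (io j)]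
  [∀ j, DecidableEq (io j)] {A B I : Type} [Fintype A] [Fintype B]
  [Fintype I] {E E' : Type} [Field E] [Algebra ℂ E] [Field E'] [Algebra ℂ E']
  {d : J → ℕ} {N : ℕ} {z : Cfg io I E}

theorem exists_bnd (f : A → J → ℕ) (c : ℕ) : ∃ N₀, ∀ N, N₀ ≤ N → ∀ a j, c * f a j ≤ N :=
  ⟨c * ∑ a, ∑ j, f a j, fun _ hN a j => le_trans (Nat.mul_le_mul_left _
    ((Finset.single_le_sum (f := f a) (fun _ _ => Nat.zero_le _) (Finset.mem_univ j)).trans
      (Finset.single_le_sum (f := fun a => ∑ j, f a j) (fun _ _ => Nat.zero_le _)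
        (Finset.mem_univ a)))) hN⟩

/-- a homogeneous member of an ideal with homogeneous generators -/
theorem exists_mz {F : B → MvPolynomial (Vr io) ℂ} {kk : B → J → ℤ} (hF : ∀ b, MZ (F b) (kk b))
    {q : MvPolynomial (Vr io) ℂ} {κ : J → ℤ} (hq : MZ q κ) (h : q ∈ Ideal.span (Set.range F)) :
    ∃ r : B → MvPolynomial (Vr io) ℂ, (∀ b, MZ (r b) (κ - kk b)) ∧ q = ∑ b, r b * F b := by
  classical
  obtain ⟨r, hr⟩ := Ideal.mem_span_range_iff_exists_fun.1 h
  let w := fun v : Vr io => (Pi.single v.1 1 : J → ℤ)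
  let _ := MvPolynomial.weightedGradedAlgebra ℂ w
  refine ⟨fun b => MvPolynomial.weightedHomogeneousComponent w (κ - kk b) (r b),
    fun b => MvPolynomial.weightedHomogeneousComponent_isWeightedHomogeneous _ _, ?_⟩
  rw [← hq.weightedHomogeneousComponent_same, ← hr, map_sum]
  refine Finset.sum_congr rfl fun b _ => ?_
  have := DirectSum.coe_decompose_mul_add_of_right_mem
    (MvPolynomial.weightedHomogeneousSubmodule ℂ w) (a := r b) (i := κ - kk b) (hF b)
  rw [sub_add_cancel] at this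
  exact (MvPolynomial.weightedDecomposition.decompose'_apply ℂ w _ _).symm.trans
    (this.trans (congrArg (· * F b) (MvPolynomial.weightedDecomposition.decompose'_apply ℂ w _ _)))

/-- the empty matrix -/
def emp (io : J → Type) (B : Type) : B → Empty → MvPolynomial (Vr io) ℂ := fun _ _ => 0

theorem hz_emp (kk : B → J → ℕ) : HZ kk (fun _ : Empty => 0) (emp io B) := fun _ _ => MZ.zero _

theorem pR_emp (y : Pnt io E) : pR (emp io B) y = ⊥ :=
  eq_bot_iff.2 (by rintro _ ⟨u, rfl⟩; exact funext fun b => by simp [Matrix.mulVec, dotProduct])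

theorem Rb_emp (kk : B → J → ℕ) (z : Cfg io I E) : Rb kk (emp io B) z = ⊥ :=
  eq_bot_iff.2 fun σ hσ => funext fun x => by
    have := (mem_Rb.1 hσ).2 x.2
    rw [pR_emp] at this
    exact congrFun this x.1

/-- a tuple as a column -/
def col (η : B → MvPolynomial (Vr io) ℂ) : B → Unit → MvPolynomial (Vr io) ℂ := fun b _ => η b

theorem mem_pR_col {η : B → MvPolynomial (Vr io) ℂ} {y : Pnt io E} {u : B → E} :
    u ∈ pR (col η) y ↔ ∃ μ : E, ∀ b, u b = μ * pv y (η b) :=
  ⟨fun ⟨w, h⟩ => ⟨w (), fun b => by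
      rw [← h]; simp [Matrix.mulVec, dotProduct, pM, col, mul_comm]⟩,
    fun ⟨μ, h⟩ => ⟨fun _ => μ, funext fun b => by
      rw [h]; simp [Matrix.mulVec, dotProduct, pM, col, mul_comm]⟩⟩

theorem pK_col {η : B → MvPolynomial (Vr io) ℂ} {y : Pnt io E} (h : ∃ b, pv y (η b) ≠ 0) :
    pK (col η) y = ⊥ :=
  eq_bot_iff.2 fun u hu => funext fun _ => by
    obtain ⟨b, hb⟩ := h
    simpa [col, hb] using mem_pK.1 hu b

theorem finrank_pR_col {η : B → MvPolynomial (Vr io) ℂ} {y : Pnt io E} (h : ∃ b, pv y (η b) ≠ 0) :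
    Module.finrank E (pR (col η) y) = 1 := by
  have := finrank_pR_add_pK (col η) y
  rwa [pK_col h, finrank_bot, add_zero] at this

omit [Algebra ℂ E] in
/-- two vectors proportional to a third one -/
theorem exists_mul_of_wedge {u y : B → E} (hy : ∃ b, y b ≠ 0) (h : ∀ a b, u a * y b = u b * y a) :
    ∃ μ : E, ∀ b, u b = μ * y b := by
  obtain ⟨a, ha⟩ := hy
  exact ⟨u a / y a, fun b => by rw [div_mul_eq_mul_div, h, mul_div_cancel_right₀ _ ha]⟩

theorem hz_col {η : B → MvPolynomial (Vr io) ℂ} {κ κ₀ κ₁ : J → ℕ} (h : ∀ b, MH (η b) κ)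
    (e : κ₀ + κ = κ₁) : HZ (fun _ => κ₁) (fun _ => κ₀) (col η) :=
  fun b _ => (MZ.of_MH (h b)).congr fun j => by rw [← e]; simp

theorem mh_X (v : Vr io) : MH (MvPolynomial.X v) (Pi.single v.1 1) :=
  MvPolynomial.isWeightedHomogeneous_X _ _ v

theorem dot_single (j : J) (d : J → ℕ) : dot (Pi.single j 1) d = d j := by
  simp [dot, Pi.single_apply]

namespace TD

variable {k : Type} [Field k] [Algebra ℂ k] (D : TD d N z k)

include D in
/-- sections of degree zero are constants -/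
theorem mem_V_zero {u : I → E} : u ∈ z.V 0 ↔ ∃ μ, ∀ q, u q = μ := by
  have h1 : (fun _ => 1) ∈ z.V 0 := by
    simpa [pv] using D.pv_mem_V (F := 1) (MvPolynomial.isWeightedHomogeneous_one _ _)
      fun _ => Nat.zero_le _
  refine ⟨fun hu => ?_, fun ⟨μ, h⟩ => ?_⟩
  · rcases isEmpty_or_nonempty I with h | ⟨⟨q⟩⟩
    · exact ⟨0, h.elim⟩
    have h2 := D.finrank_V (κ := 0) fun _ => Nat.zero_le _
    obtain ⟨μ, h3⟩ := (finrank_eq_one_iff_of_nonzero' (⟨_, h1⟩ : z.V 0) fun h =>
      one_ne_zero (congrFun (congrArg Subtype.val h) q)).1 (by simpa [dot] using h2) ⟨u, hu⟩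
    exact ⟨μ, fun q => by simpa using (congrFun (congrArg Subtype.val h3) q).symm⟩
  · rw [show u = μ • fun _ => 1 from funext fun q => by simp [h]]
    exact Submodule.smul_mem _ _ h1


/-- a subfamily of points on which the restriction is injective -/
def res {I₀ : Type} [Fintype I₀] (g : I₀ → I)
    (h : ∀ κ : J → ℕ, (∀ j, κ j ≤ N) → ∀ w ∈ z.V κ, (∀ q, w (g q) = 0) → w = 0) :
    TD d N (z.res g) k where
  α := D.α
  t := D.t
  sp q := D.sp (g q)
  c q := D.c (g q)
  ok := D.ok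
  deg := D.deg
  c_ne q := D.c_ne (g q)
  y_eq q := D.y_eq (g q)
  V_eq κ hκ := by
    have h1 := D.V_eq κ hκ
    change sclS _ (mapS _ _) = _ at h1
    change sclS _ (mapS _ (Submodule.map _ _)) = _
    rw [mapS_map]
    ext u
    constructor
    · rintro ⟨_, ⟨w, hw, rfl⟩, rfl⟩
      obtain ⟨s, h2, h3⟩ := h1.le ⟨w, hw, rfl⟩
      exact ⟨s, h2, funext fun q => congrFun h3 (g q)⟩
    · rintro ⟨s, hs, rfl⟩
      obtain ⟨w, h2, h3⟩ := h1.ge ⟨s, hs, rfl⟩
      exact ⟨_, ⟨w, h2, rfl⟩, funext fun q => congrFun h3 (g q)⟩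
  nrm κ hκ s hs h0 := by
    obtain ⟨w, h2, h3⟩ := (D.V_eq κ hκ).ge ⟨s, hs, rfl⟩
    have h4 : ∀ l, IsRt D.α l → (fun q => l (w q)) = 0 := fun l hl =>
      h κ hκ _ ((mem_mapS_iff D.α).1 h2 l hl) fun q => by
        have h5 : (∏ j, D.c (g q) j ^ κ j) * w (g q) = 0 :=
          (congrFun h3 (g q)).trans (h0 _ ⟨q, rfl⟩)
        rw [(mul_eq_zero.1 h5).resolve_left (chr_ne' (D.c_ne _) κ), map_zero]
    have h5 : w ∈ mapS D.α (⊥ : Submodule E (I → E)) := (mem_mapS_iff D.α).2 h4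
    have h6 : w = 0 := by
      have h7 := finrank_mapS D.α (⊥ : Submodule E (I → E))
      rwa [Submodule.finrank_eq_zero.1 (h7.trans (finrank_bot _ _))] at h5
    refine D.eq_zero hκ hs fun q => (congrFun h3 q).symm.trans ?_
    rw [h6, map_zero]; rfl

variable [IsAlgClosed k]

/-- sections proportional to a tuple without common zero are multiples -/
theorem Rb_col {η : B → MvPolynomial (Vr io) ℂ} {κ κ₀ κ₁ : J → ℕ} (h : ∀ b, MH (η b) κ)
    (e : κ₀ + κ = κ₁) (h0 : ∀ x, ∃ b, pv (D.t.ev x) (η b) ≠ 0) (hN : ∀ j, 2 * κ₁ j ≤ N) :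
    (∀ σ, σ ∈ Rb (fun _ => κ₁) (col η) z ↔
      ∃ μ ∈ z.V κ₀, ∀ x, σ x = μ x.2 * pv (z.y x.2) (η x.1)) ∧
    Module.finrank E (Rb (fun _ => κ₁) (col η) z) = dot κ₀ d + 1 := by
  obtain ⟨h1, -, h2⟩ := D.lift (hz_emp fun _ : Unit => κ₀) (hz_col h e) (n' := 0)
    (fun x => by rw [pR_emp, finrank_bot]) (fun x => by rw [pR_emp, pK_col (h0 x)])
    (fun _ j => le_trans (by
      rw [← e, Fintype.card_unit]; exact Nat.mul_le_mul_left _ (Nat.le_add_right _ _)) (hN j))
    fun _ j => by rw [Fintype.card_unit]; exact hN j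
  rw [Rb_emp, finrank_bot, add_zero, Finset.univ_unique, Finset.sum_singleton] at h2
  refine ⟨fun σ => ?_, h2⟩
  rw [← h1]
  constructor
  · rintro ⟨μ, hμ, rfl⟩
    exact ⟨_, mem_Am.1 hμ (), fun x => by simp [mpL_apply, col, mul_comm]⟩
  · rintro ⟨μ, hμ, h3⟩
    exact ⟨fun x => μ x.2, mem_Am.2 fun _ => hμ, funext fun x => by
      simp [mpL_apply, col, mul_comm, h3]⟩

/-- (PROP) sections of `O(κ)` proportional to a tuple of degree `κ` at all points -/
theorem prop {η : B → MvPolynomial (Vr io) ℂ} {κ : J → ℕ} (h : ∀ b, MH (η b) κ)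
    (h0 : ∀ x, ∃ b, pv (D.t.ev x) (η b) ≠ 0) (hN : ∀ j, 2 * κ j ≤ N) {s : B → I → E}
    (hs : ∀ b, s b ∈ z.V κ) (hw : ∀ q a b, s a q * pv (z.y q) (η b) = s b q * pv (z.y q) (η a)) :
    ∃ μ : E, ∀ b q, s b q = μ * pv (z.y q) (η b) := by
  obtain ⟨μ, h1, h2⟩ := ((D.Rb_col h (zero_add κ) h0 hN).1 fun x => s x.1 x.2).1
    (mem_Rb.2 ⟨hs, fun q => mem_pR_col.2 (exists_mul_of_wedge (by
      obtain ⟨b, hb⟩ := h0 (D.sp q)
      refine ⟨b, fun h3 => hb ?_⟩
      rw [D.ev_sp, (MZ.of_MH (h b)).pv_scl (D.c_ne q), pv_map, h3, map_zero, mul_zero]) (hw q))⟩)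
  obtain ⟨ν, h3⟩ := D.mem_V_zero.1 h1
  exact ⟨ν, fun b q => by rw [← h3 q]; exact h2 (b, q)⟩

end TD

theorem TL.res (h : TL d N z) {I₀ : Type} [Fintype I₀] (g : I₀ → I)
    (hg : ∀ κ : J → ℕ, (∀ j, κ j ≤ N) → ∀ w ∈ z.V κ, (∀ q, w (g q) = 0) → w = 0) :
    TL d N (z.res g) := by
  obtain ⟨k, _, _, _, ⟨D⟩⟩ := h
  exact ⟨k, _, _, ‹_›, ⟨D.res g hg⟩⟩


/-- on a vertex, a nonzero tuple of forms proportional to a tuple without common zero has the
larger degree -/
theorem le_of_prop {k : Type} [Field k] [IsAlgClosed k] {n m : ℤ} {g f : B → k[X]}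
    (hg : ∀ b, DL n (g b)) (hf : ∀ b, DL m (f b)) (h0 : ∀ p, ∃ b, ev n p (g b) ≠ 0)
    (hw : ∀ p a b, ev m p (f a) * ev n p (g b) = ev m p (f b) * ev n p (g a)) (hne : f ≠ 0) :
    n ≤ m := by
  have h1 : DM (fun _ : B => m) (fun _ : Unit => m - n) (Matrix.of fun b _ => g b) :=
    fun b _ => by simpa using hg b
  obtain ⟨σ, h2, h3⟩ := lift h1 (τ := f) (fun p u hu => ⟨0, zero_mem _, by
    obtain ⟨b, hb⟩ := h0 p
    have h4 := congrFun (mem_Kr.1 hu) b
    funext x
    simp only [Matrix.mulVec, dotProduct, evM, Finset.univ_unique, Finset.sum_singleton,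
      sub_sub_cancel, Matrix.of_apply, Pi.zero_apply, mul_eq_zero, hb, false_or] at h4
    simpa using h4.symm⟩) (mem_Sec.2 ⟨hf, fun p => by
      obtain ⟨μ, h4⟩ := exists_mul_of_wedge (h0 p) (hw p)
      exact mem_Rg.2 ⟨fun _ => μ, funext fun b => by
        simp [Matrix.mulVec, dotProduct, evM, h4, mul_comm]⟩⟩)
  by_contra h4
  apply hne
  rw [← h3, show σ = 0 from funext fun x => (h2 x).eq_zero (by omega), Matrix.mulVec_zero]

end Crest.Agent.X262.Tree87
end
end

-- ▼ part X262/Emb87/Main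
section

/-!
Row 262, EMB, tree part (helper87): `PropStmt`, `BndStmt`, `ExactStmt`, `exists_isR`, `tl_prC`.
-/

set_option autoImplicit false
set_option linter.unusedSectionVars false

noncomputable section

namespace Crest.Agent.X262.Emb87

open Polynomial Crest.Agent.X262.Bub96 Crest.Agent.X262.Bub96.Tr Crest.Agent.X262.Vb
open Crest.Agent.X262.Tree87 Crest.Agent.X262.Emb

theorem propStmt : PropStmt := by
  intro J _ _ io _ _ I E E' _ _ _ _ _ d N z β j ⟨k, _, _, _, ⟨D⟩⟩ hN s hs hw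
  have h1 : (fun x : io j × I => s x.1 x.2) ∈
      mapS β (Submodule.span E (Set.range fun (_ : Unit) (x : io j × I) => z.y x.2 j x.1)) := by
    refine (mem_mapS_iff β).2 fun l hl => ?_
    obtain ⟨μ, hμ⟩ := D.prop (η := fun a : io j => MvPolynomial.X ⟨j, a⟩) (fun a => mh_X ⟨j, a⟩)
      (fun x => by simpa [pv] using D.ok.ev_ne x j)
      (fun i => le_trans (by rw [Pi.single_apply]; split_ifs <;> simp) hN)
      (fun a => (mem_mapS_iff β).1 (hs a) l hl) fun q a b => by
        simp only [pv, MvPolynomial.aeval_X]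
        rw [mul_comm, ← hl, mul_comm (β _), hw, mul_comm, hl, mul_comm]
    refine (Submodule.mem_span_range_iff_exists_fun E).2 ⟨fun _ => μ, funext fun x => ?_⟩
    simpa [pv] using (hμ x.1 x.2).symm
  rw [mapS_span] at h1
  obtain ⟨μ, hμ⟩ := (Submodule.mem_span_range_iff_exists_fun E').1 h1
  exact ⟨μ (), fun a q => by simpa using (congrFun hμ (a, q)).symm⟩

variable {J : Type} [Fintype J] [DecidableEq J] {io : Option J → Type} [∀ j, Fintype (io j)]
  [∀ j, DecidableEq (io j)] {A A' I : Type} [Fintype A] [Fintype A'] [Fintype I]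
  {E : Type} [Field E] [Algebra ℂ E] {T : Tgt (bs io) A} {T' : Tgt io A'} {d : J → ℕ}

theorem pv_upq (y : Pnt io E) (q : MvPolynomial (Vr (bs io)) ℂ) : pv y (upq q) = pv (prP y) q :=
  MvPolynomial.aeval_rename _ _ q

theorem pderiv_upq_some (v : Vr (bs io)) (q : MvPolynomial (Vr (bs io)) ℂ) :
    MvPolynomial.pderiv (⟨some v.1, v.2⟩ : Vr io) (upq q) = upq (MvPolynomial.pderiv v q) :=
  MvPolynomial.pderiv_rename (f := fun v : Vr (bs io) => (⟨some v.1, v.2⟩ : Vr io))
    (by rintro ⟨j, i⟩ ⟨j', i'⟩ h; cases h; rfl) v q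

theorem pderiv_upq_none (i : io none) (q : MvPolynomial (Vr (bs io)) ℂ) :
    MvPolynomial.pderiv (⟨none, i⟩ : Vr io) (upq q) = 0 := by
  classical
  refine MvPolynomial.pderiv_eq_zero_of_notMem_vars fun h => ?_
  obtain ⟨v, -, hv⟩ := Finset.mem_image.1 (MvPolynomial.vars_rename _ _ h)
  cases hv

theorem mh_upq {q : MvPolynomial (Vr (bs io)) ℂ} {κ : J → ℕ} (h : MH q κ) :
    MH (upq (io := io) q) (exd κ 0) := by
  intro s hs
  obtain ⟨u, rfl, hu⟩ := MvPolynomial.coeff_rename_ne_zero _ _ _ hs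
  rw [← h hu, Finsupp.weight_apply, Finsupp.weight_apply,
    Finsupp.sum_mapDomain_index (by simp) (by simp [add_smul]), Finsupp.sum, Finsupp.sum]
  funext j
  cases j <;> simp [exd, Finset.sum_apply, Pi.single_apply]

theorem exists_isR (h : ∀ a, upq (T.F a) ∈ Ideal.span (Set.range T'.F)) : ∃ r, IsR T T' r := by
  choose r h1 h2 using fun a =>
    exists_mz (fun b => MZ.of_MH (T'.hom b)) (MZ.of_MH (mh_upq (T.hom a))) (h a)
  exact ⟨r, h1, h2⟩

theorem dot_exd (κ : J → ℕ) (d : Option J → ℕ) : dot (exd κ 0) d = dot κ fun j => d (some j) := by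
  simp [dot, exd, Fintype.sum_option]


section pt

variable {y : Pnt io E}

theorem pv_span (hO : T'.On y) {q : MvPolynomial (Vr io) ℂ}
    (h : q ∈ Ideal.span (Set.range T'.F)) : pv y q = 0 := by
  obtain ⟨r, rfl⟩ := Ideal.mem_span_range_iff_exists_fun.1 h
  simp only [pv, map_sum, map_mul]
  exact Finset.sum_eq_zero fun b _ => mul_eq_zero_of_right _ (hO b)

theorem pv_pderiv_sum (hO : T'.On y) (r : A' → MvPolynomial (Vr io) ℂ) (v : Vr io) :
    pv y (MvPolynomial.pderiv v (∑ b, r b * T'.F b)) =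
      ∑ b, pv y (r b) * pv y (MvPolynomial.pderiv v (T'.F b)) := by
  simp only [map_sum, Derivation.leibniz, smul_eq_mul, pv, map_add, map_mul]
  refine Finset.sum_congr rfl fun b _ => ?_
  rw [show MvPolynomial.aeval (fun v : Vr io => y v.1 v.2) (T'.F b) = 0 from hO b, zero_mul,
    add_zero]

theorem sum_exP (f : Vr io → E) (u : Pnt (bs io) E) (w : io none → E) :
    ∑ v, f v * exP u w v.1 v.2 =
      ∑ i, f ⟨none, i⟩ * w i + ∑ v : Vr (bs io), f ⟨some v.1, v.2⟩ * u v.1 v.2 := by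
  rw [Fintype.sum_sigma, Fintype.sum_option, Fintype.sum_sigma]
  rfl

theorem exP_eta (u : Vr io → E) (v : Vr io) :
    exP (io := io) (fun j i => u ⟨some j, i⟩) (fun i => u ⟨none, i⟩) v.1 v.2 = u v := by
  rcases v with ⟨_ | j, i⟩ <;> rfl

variable {r : A → A' → MvPolynomial (Vr io) ℂ}

theorem pM_r (hr : IsR T T' r) (hO : T'.On y) (a : A) (v : Vr io) :
    pM (mm r (jacP T')) y a v = pv y (MvPolynomial.pderiv v (upq (T.F a))) := by
  rw [hr.2, pv_pderiv_sum hO, pM_mm]; rfl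

theorem mulVec_r (hr : IsR T T' r) (hO : T'.On y) (u : Pnt (bs io) E) (w : io none → E) :
    (pM (mm r (jacP T')) y).mulVec (fun v => exP u w v.1 v.2) =
      (pM (jacP T) (prP y)).mulVec fun v => u v.1 v.2 := by
  funext a
  refine (sum_exP _ u w).trans ?_
  simp only [pM_r hr hO, pderiv_upq_none, pderiv_upq_some, pv_upq]
  simp [pv, Matrix.mulVec, dotProduct, pM, jacP]

theorem pR_r (hr : IsR T T' r) (hO : T'.On y) : pR (mm r (jacP T')) y = T.Nm (prP y) := by
  rw [Nm_eq]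
  apply le_antisymm
  · rintro _ ⟨u, rfl⟩
    refine ⟨_, (mulVec_r hr hO (fun j i => u ⟨some j, i⟩) fun i => u ⟨none, i⟩).symm.trans ?_⟩
    simp only [exP_eta]; rfl
  · rintro _ ⟨u, rfl⟩
    exact ⟨_, mulVec_r hr hO (fun j i => u ⟨j, i⟩) 0⟩

theorem mulVec_jac0 (y : Pnt io E) (w : io none → E) :
    (pM (jacP T') y).mulVec (fun v => exP 0 w v.1 v.2) = (pM (jac0 T') y).mulVec w := by
  funext a
  refine (sum_exP _ 0 w).trans ?_
  simp [Matrix.mulVec, dotProduct, pM, jacP, jac0]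

theorem pv_sub (y : Pnt io E) (q q' : MvPolynomial (Vr io) ℂ) : pv y (q - q') = pv y q - pv y q' :=
  map_sub _ _ _

theorem sum_pderiv_X (y : Pnt io E) (w : io none → E) (a : io none)
    (q : MvPolynomial (Vr (bs io)) ℂ) :
    ∑ i, pv y (MvPolynomial.pderiv ⟨none, i⟩ (MvPolynomial.X ⟨none, a⟩ * upq q)) * w i =
      w a * pv (prP y) q := by
  rw [Finset.sum_eq_single a (fun i _ hi => ?_) (by simp)]
  · rw [Derivation.leibniz, pderiv_upq_none, MvPolynomial.pderiv_X_self, ← pv_upq, mul_comm]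
    simp
  · rw [Derivation.leibniz, pderiv_upq_none, MvPolynomial.pderiv_X_of_ne (by simpa using hi.symm)]
    simp [pv]

theorem pK_jac0 (G : Gr T T' d) (hO : T'.On y) (h0 : NZ y) (hq : ∃ l a, pv (prP y) (G.q l a) ≠ 0) :
    pK (jac0 T') y = pR (col fun i : io none => MvPolynomial.X ⟨none, i⟩) y := by
  obtain ⟨l, hl⟩ := hq
  ext w
  rw [mem_pR_col]
  simp only [pv, MvPolynomial.aeval_X]
  constructor
  · intro hw
    have h1 : ∀ a b, w a * pv (prP y) (G.q l b) = w b * pv (prP y) (G.q l a) := fun a b => by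
      obtain ⟨s, hs⟩ := Ideal.mem_span_range_iff_exists_fun.1 (G.idq l a b)
      have h2 : ∑ i, pv y (MvPolynomial.pderiv ⟨none, i⟩ (∑ c, s c * T'.F c)) * w i = 0 := by
        simp only [pv_pderiv_sum hO, Finset.sum_mul, mul_assoc]
        rw [Finset.sum_comm]
        exact Finset.sum_eq_zero fun c _ => by
          rw [← Finset.mul_sum]; exact mul_eq_zero_of_right _ (mem_pK.1 hw c)
      rw [hs] at h2
      simp only [map_sub, pv_sub, sub_mul, Finset.sum_sub_distrib, sum_pderiv_X] at h2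
      exact sub_eq_zero.1 h2
    have h2 : ∀ a b, y none a * pv (prP y) (G.q l b) = y none b * pv (prP y) (G.q l a) :=
      fun a b => by
        have := pv_span hO (G.idq l a b)
        rw [← pv_upq, ← pv_upq]
        simpa [pv, sub_eq_zero] using this
    obtain ⟨μ, h3⟩ := exists_mul_of_wedge hl h1
    obtain ⟨ν, h4⟩ := exists_mul_of_wedge hl h2
    obtain ⟨i, hi⟩ := h0 none
    have h5 : ν ≠ 0 := fun h => hi (by rw [h4, h, zero_mul])
    exact ⟨μ / ν, fun b => by rw [h3, h4, ← mul_assoc, div_mul_cancel₀ _ h5]⟩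
  · rintro ⟨μ, hμ⟩
    have h1 := Node22.jac_euler T' hO (Pi.single none μ)
    change Matrix.mulVec _ w = 0
    rw [← mulVec_jac0, ← h1]
    change _ = Matrix.toLin' _ _
    rw [Matrix.toLin'_apply]
    congr 1
    funext v
    rcases v with ⟨_ | j, i⟩
    · simp [exP, hμ, Node22.vec]
    · simp [exP]

theorem nz_col (h0 : NZ y) : ∃ b : io none, pv y (MvPolynomial.X ⟨none, b⟩) ≠ 0 := by
  simpa [pv] using h0 none

theorem finrank_jac0 (G : Gr T T' d) (hO : T'.On y) (h0 : NZ y)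
    (hq : ∃ l a, pv (prP y) (G.q l a) ≠ 0) :
    Module.finrank E (pR (jac0 T') y) = Fintype.card (io none) - 1 := by
  have := finrank_pR_add_pK (jac0 T') y
  rw [pK_jac0 G hO h0 hq, finrank_pR_col (nz_col h0)] at this
  omega

theorem ex_jac0 (G : Gr T T' d) (hr : IsR T T' r) (hO : T'.On y) (h0 : NZ y)
    (hq : ∃ l a, pv (prP y) (G.q l a) ≠ 0) {c : ℕ} (h1 : Module.finrank E (T.Nm (prP y)) = c)
    (h2 : Module.finrank E (T'.Nm y) = cp' io c) :
    Ex (jac0 T') (jacP T') r (Fintype.card (io none) - 1) (cp' io c) y := by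
  rw [Nm_eq] at h2
  refine ⟨finrank_jac0 G hO h0 hq, h2, (Submodule.eq_of_le_of_finrank_eq ?_ ?_).symm⟩
  · rintro _ ⟨w, rfl⟩
    refine ⟨⟨_, mulVec_jac0 y w⟩, ?_⟩
    change Matrix.mulVec _ (Matrix.mulVec _ w) = 0
    rw [← mulVec_jac0, Matrix.mulVec_mulVec, ← pM_mm, mulVec_r hr hO]
    exact Matrix.mulVec_zero _
  · have h3 := finrank_map_add_inf (pM r y).mulVecLin (pR (jacP T') y)
    rw [← pR_mm, pR_r hr hO, h1, h2, cp'] at h3
    rw [finrank_jac0 G hO h0 hq]
    exact (Nat.add_left_cancel h3).symm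

end pt

theorem hz_jac0 (T' : Tgt io A') : HZ T'.k (fun _ => Pi.single none 1) (jac0 T') :=
  fun a i => hz_jac T' a ⟨none, i⟩

section tree

variable {k : Type} [Field k] [Algebra ℂ k] [IsAlgClosed k] {t : Tr k (Option J) io} {n : ℕ}

theorem on_prT (G : Gr T T' d) (hO : ∀ x, T'.On (t.ev x)) (x : (prT some t).Pt) :
    T.On ((prT some t).ev x) := fun a => by
  obtain ⟨y, rfl⟩ := exists_pt some t x
  rw [ev_prT]
  exact (pv_upq (t.ev y) (T.F a)).symm.trans (pv_span (hO y) (G.idF a))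

theorem cov (G : Gr T T' d) (ht : t.OK) (hd : t.deg = exd d n) (hO : ∀ x, T'.On (t.ev x))
    (x : t.Pt) : ∃ l a, pv (prP (t.ev x)) (G.q l a) ≠ 0 := by
  have := G.cov k _ (ok_prT some ht) (by rw [deg_prT, hd]; rfl) (on_prT G hO) (prE some t x.1, x.2)
  rwa [ev_prT] at this

theorem deg_le (G : Gr T T' d) (ht : t.OK) (hd : t.deg = exd d n) (hO : ∀ x, T'.On (t.ev x)) :
    n ≤ ∑ l, dot (G.m l) d := by
  have h1 : ∀ v, t.vd v none ≤ ∑ l, dot (G.m l) fun j => t.vd v (some j) := fun v => by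
    obtain ⟨l, a, h⟩ := cov G ht hd hO (v, none)
    refine le_trans ?_ (Finset.single_le_sum (f := fun l => dot (G.m l) fun j => t.vd v (some j))
      (fun _ _ => Nat.zero_le _) (Finset.mem_univ l))
    have h2 := fun b => (MZ.of_MH (G.hom l b)).sb (d := fun j => t.vd v (some j))
      (g := fun j => t.vg v (some j)) fun j => ht.natDegree_le v (some j)
    have h3 := le_of_prop (fun b => DL_nat.2 (ht.natDegree_le v none b)) (fun b => (h2 b).1)
      (fun p => by simp only [ev_eq_hv]; exact ht.ev_ne (v, p) none) (fun p a b => by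
        have := pv_span (hO (v, p)) (G.idq l b a)
        simp only [pv, map_sub, map_mul, MvPolynomial.aeval_X, sub_eq_zero] at this
        rw [(h2 _).2, (h2 _).2, ev_eq_hv, ev_eq_hv, mul_comm, mul_comm (pv _ _)]
        exact (congrArg (_ * ·) (pv_upq (t.ev (v, p)) _).symm).trans
          (this.trans (congrArg (_ * ·) (pv_upq (t.ev (v, p)) _))))
      fun h4 => h (by
        have h5 := (h2 a).2 none
        rw [show sb _ (G.q l a) = 0 from congrFun h4 a, map_zero] at h5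
        exact h5.symm)
    unfold dot
    exact_mod_cast h3
  calc n = ∑ v, t.vd v none := by rw [sum_vd, hd]; rfl
    _ ≤ ∑ v, ∑ l, dot (G.m l) fun j => t.vd v (some j) := Finset.sum_le_sum fun v _ => h1 v
    _ = _ := by
      rw [Finset.sum_comm]
      refine Finset.sum_congr rfl fun l _ => ?_
      simp only [← dot_exd]
      rw [sum_dot_vd, hd, dot_exd]; rfl

end tree

theorem bndStmt : BndStmt := by
  intro J _ _ io _ _ A A' _ _ T T' d G
  refine ⟨∑ l, dot (G.m l) d, fun n N z hN ⟨k, _, _, _, ⟨D⟩⟩ hO =>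
    ⟨deg_le G D.ok D.deg (D.on hN hO), fun q => ?_⟩⟩
  obtain ⟨l, a, h⟩ := cov G D.ok D.deg (D.on hN hO) (D.sp q)
  refine ⟨l, a, fun h1 => h ?_⟩
  rw [← pv_upq, D.ev_sp, (MZ.of_MH (mh_upq (G.hom l a))).pv_scl (D.c_ne q), Tree87.pv_map, pv_upq,
    h1, map_zero, mul_zero]

theorem exactStmt : ExactStmt := by
  intro J _ _ io _ _ A A' _ _ T T' d G r c n hr ⟨_, S, hS⟩ ⟨_, S', hS'⟩
  obtain ⟨N₁, h1⟩ := exists_bnd T'.k (Fintype.card A' + 1)
  obtain ⟨N₂, h2⟩ := exists_bnd (fun a => exd (T.k a) 0) (Fintype.card A' + 1)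
  obtain ⟨N₃, h3⟩ := exists_bnd T'.k (Fintype.card (io none) + 1)
  refine ⟨N₁ + N₂ + N₃ + Fintype.card (io none) + 2, fun N z hN ⟨k, _, _, _, ⟨D⟩⟩ hO => ?_⟩
  have h4 := D.on (fun a j => le_of_succ_mul (h1 N (by omega) a j)) hO
  have h5 := cov G D.ok D.deg h4
  have e : ∀ x, Ex (jac0 T') (jacP T') r _ _ (D.t.ev x) := fun x =>
    ex_jac0 G hr (h4 x) (nz_ev _ D.ok x) (h5 x) (by
      have := (hS k _ (ok_prT some D.ok) (by rw [deg_prT, D.deg]; rfl) (on_prT G h4)
        (prE some D.t x.1, x.2)).1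
      rwa [ev_prT] at this) (hS' k _ D.ok D.deg h4 x).1
  obtain ⟨h6, h7⟩ := D.ses (hz_jac T') (hz_jac0 T') hr.1 e (h1 N (by omega)) (h2 N (by omega))
  have hb : ∀ (m : ℕ) (j : Option J), m ≤ N → m * (Pi.single none 1 : Option J → ℕ) j ≤ N :=
    fun m j hm => le_trans (by rw [Pi.single_apply]; split_ifs <;> simp) hm
  have h8 := (D.lift (hz_col (fun i : io none => mh_X ⟨none, i⟩) (zero_add _)) (hz_jac0 T')
    (fun x => finrank_pR_col (nz_col (nz_ev _ D.ok x)))
    (fun x => pK_jac0 G (h4 x) (nz_ev _ D.ok x) (h5 x)) (fun _ j => hb _ j (by omega))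
    (h3 N (by omega))).2.2
  rw [(D.Rb_col (fun i : io none => mh_X ⟨none, i⟩) (zero_add _)
    (fun x => nz_col (nz_ev _ D.ok x)) fun j => hb _ j (by omega)).2] at h8
  rw [Eb_eq]
  refine ⟨h6.trans ?_, h7, ?_, fun q => (D.finrank_pR (hz_jac0 T') q).symm.trans (e _).r1⟩
  · ext σ
    rw [Eb_eq, mem_Rb, mem_Rb]
    simp only [pR_r hr (hO _), Nm_eq]
    rfl
  · simp only [dot_single, Finset.sum_const, Finset.card_univ, smul_eq_mul] at h8
    have h9 : dot 0 (exd d n) = 0 := by simp [dot]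
    rw [h9] at h8
    exact Nat.eq_sub_of_add_eq h8

end Crest.Agent.X262.Emb87
end
end

-- ▼ part X262/Emb40/Ring
section

/-!
# Row 262, EMB (helper40): the self-intersection of the exceptional divisor of a point

* `bnum_disj` : b-divisors with disjoint supports have zero product;
* `bnum_exc`  : `(A - B) ^ m = (-1) ^ (m + 1) A ^ m` for `A = mxf (c 0, …, c m)`,
  `B = mxf (c 1, …, c m)`;
* `ring_a`, `ring_b`, `ring_c`, `ring_d` : the same for integrals along the fibres.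
-/

set_option autoImplicit false
set_option linter.unusedSectionVars false

noncomputable section

namespace Crest.Agent.X262.Emb40

open Crest.Agent.X277 Crest.Agent.X277.BD Crest.Agent.X277.Pst Crest.Agent.X277.BD.Cyc
open Crest.Agent.X262.Geo Crest.Agent.X262.Hb Crest.Agent.X262.Val40 Crest.Agent.X262.Tr89
open Crest.Agent.X262.Div (rn rn_tower tower_ind)
open List (replicate)

section Num

variable {k F : Type} [Field k] [Field F] [Algebra k F] [CharZero k] [Algebra.EssFiniteType k F]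

/-- disjoint supports -/
theorem bnum_disj {a b : BD k F} (h : ∀ V, a.val V = 1 ∨ b.val V = 1) (l : List (BD k F)) :
    bnum (a :: b :: l) = 0 := by
  obtain ⟨T, h1, -, h3⟩ := exists_cyc' a (b :: l)
  rw [h3]
  refine Finset.sum_eq_zero fun V hV => ?_
  by_cases h0 : a.val V = 1
  · rw [(od_eq_zero (h1 V hV)).2 h0, zero_mul]
  have hb := (h V).resolve_left h0
  have := essFT_Rf (h1 V hV)
  have h4 : (plV V).res b = 0 := ext' fun U => by
    have h5 : b.val ((plV V).cm U) = 1 := (h _).resolve_left fun h6 => h0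
      ((val_of_le (g := 1) (Pl.cm_le (p := plV V) U) (by rw [h6, map_one])).symm.trans (map_one _))
    rw [Pl.val_res (g := 1) hb (by rw [h5, map_one]), Pl.r_one, map_one, val_zero]
  rw [Geo.dg_eq, List.map_cons, (Pl.lin_rs_res (p := plV V) hb).bnum_eq, h4, bnum_zero, mul_zero]

theorem bnum_rep_sub {x y z : BD k F} {s : ℤ} (h : ∀ l, bnum (x :: y :: l) = s * bnum (x :: z :: l))
    (j : ℕ) : ∀ l, bnum (x :: (replicate j y ++ l)) = s ^ j * bnum (x :: (replicate j z ++ l)) := by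
  induction j with
  | zero => simp
  | succ j ih =>
    intro l
    have h1 : ∀ w : BD k F, bnum (x :: z :: (replicate j w ++ l)) =
        bnum (x :: (replicate j w ++ z :: l)) := fun w => bnum_perm (List.perm_middle.symm.cons x)
    rw [List.replicate_succ, List.cons_append, h, h1, ih, List.replicate_succ, List.cons_append, h1,
      pow_succ', mul_assoc]

/-- `m` functions define a map to `P ^ (m - 1)` -/
theorem bnum_short {m : ℕ} {b : Fin m → F} (h : ∃ i, b i ≠ 0) :
    bnum (replicate m (mxf k b)) = 0 := by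
  obtain ⟨i, hi⟩ := h
  by_contra h0
  have h1 := (algInd_of_dim' (k := k) (s := fun j => b j / b i)
    (by simpa using le_dim_of_bnum hi h0)).transcendental i
  simp only [div_self hi] at h1
  exact h1 isAlgebraic_one

theorem bnum_base {m : ℕ} {c : Fin (m + 1) → F} (h : ∃ i : Fin m, c i.succ ≠ 0)
    (l : List (BD k F)) : bnum ((mxf k c - mxf k fun i : Fin m => c i.succ) :: mxf k c :: l) = 0 := by
  have key : ∀ V : RZ k F, (mxf k c - mxf k fun i : Fin m => c i.succ).val V = 1 ∨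
      V.v (c 0) = (mxf k c).val V := fun V => by
    obtain ⟨i, hi⟩ := exists_val_mxf (k := k) (s := c) (h.imp' Fin.succ fun _ => id) V
    obtain ⟨j, hj⟩ := exists_val_mxf (k := k) (s := fun i : Fin m => c i.succ) h V
    revert hi
    refine Fin.cases Or.inr (fun i hi => Or.inl ?_) i
    rw [val_sub, div_eq_one_iff_eq (val_ne _ _)]
    exact le_antisymm (hi ▸ mem_Sec_mxf (k := k) (fun i : Fin m => c i.succ) i V)
      (hj ▸ mem_Sec_mxf c j.succ V)
  by_cases h0 : c 0 = 0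
  · rw [show (mxf k c - mxf k fun i : Fin m => c i.succ) = 0 from ext' fun V =>
      (key V).resolve_right fun h1 => ne_of_val h1 h0, bnum_zero]
  · have h1 := bnum_disj (b := mxf k c - pr k (c 0)) (fun V => (key V).imp_right fun h1 => by
      rw [val_sub, val_pr h0, h1, div_self (val_ne _ _)]) l
    rwa [bnum_sub2, bnum_swap _ (pr k _), bnum_pr, sub_zero] at h1

/-- the self-intersection of the exceptional divisor -/
theorem bnum_exc {m : ℕ} {c : Fin (m + 1) → F} (h : ∃ i : Fin m, c i.succ ≠ 0) :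
    bnum (replicate m (mxf k c - mxf k fun i : Fin m => c i.succ)) =
      (-1) ^ (m + 1) * bnum (replicate m (mxf k c)) := by
  have h0 := bnum_base (k := k) h
  have h1 := bnum_short (k := k) h
  obtain _ | m := m
  · exact h.elim fun i _ => i.elim0
  generalize mxf k c = a at h0 ⊢
  generalize (mxf k fun i : Fin (m + 1) => c i.succ) = b at h0 h1 ⊢
  have h2 := bnum_rep_sub (x := a - b) (y := a - b) (z := b) (s := -1)
    (fun l => by rw [bnum_sub2, h0, zero_sub, neg_one_mul]) m []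
  have h3 := bnum_rep_sub (x := a) (y := a) (z := b) (s := 1) (fun l => by
    have := h0 l
    rw [bnum_swap, bnum_sub2] at this
    omega) m []
  rw [List.replicate_succ] at h1
  simp only [List.append_nil, one_pow, one_mul] at h2 h3
  rw [List.replicate_succ, List.replicate_succ, h2, h3, bnum_sub, h1, sub_zero, pow_succ, pow_succ]
  ring

end Num

section Rel

variable {k K L : Type} [Field k] [Field K] [Field L] [Algebra k K] [Algebra k L] [CharZero k]

theorem dn_top_iff {α : K →ₐ[k] L} {w : RZ k L} : dn α w = RZ.top k K ↔ ∀ x, α x ∈ w.1 :=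
  ⟨fun h x => mem_dn.1 (h ▸ ValuationSubring.mem_top x), fun h =>
    Subtype.ext (top_unique fun x _ => mem_dn.2 (h x))⟩

variable [Algebra.EssFiniteType k L]

/-- the relative number only depends on the valuations which are trivial on the base -/
theorem rn_rep (α : K →ₐ[k] L) {a b : BD k L} (h : ∀ w, dn α w = RZ.top k K → a.val w = b.val w)
    (m : ℕ) : rn α (replicate m a) = rn α (replicate m b) := by
  induction α using tower_ind with
  | h =>
    rw [rn_tower, rn_tower, List.map_replicate, List.map_replicate,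
      show up K a = up K b from ext' fun W => by
        rw [val_up, val_up]; exact h _ (dn_top_iff.2 W.2)]

theorem rn_exc (α : K →ₐ[k] L) {m : ℕ} {c : Fin (m + 1) → L} (h : ∃ i : Fin m, c i.succ ≠ 0) :
    rn α (replicate m (mxf k c - mxf k fun i : Fin m => c i.succ)) =
      (-1) ^ (m + 1) * rn α (replicate m (mxf k c)) := by
  induction α using tower_ind with
  | h =>
    rw [rn_tower, rn_tower, List.map_replicate, List.map_replicate, map_sub, up_mxf, up_mxf,
      bnum_exc h]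

theorem rn_pr (α : K →ₐ[k] L) {m : ℕ} (hm : 1 ≤ m) (g : L) : rn α (replicate m (pr k g)) = 0 := by
  induction α using tower_ind with
  | h =>
    obtain ⟨m, rfl⟩ := Nat.exists_eq_add_of_le' hm
    rw [rn_tower, List.map_replicate, up_pr, List.replicate_succ, bnum_pr]

/-- (c) -/
theorem ring_c (α : K →ₐ[k] L) {n m : ℕ} (hm : 1 ≤ m) {c : Fin (n + 1) → L} (h0 : c 0 ≠ 0)
    (h : ∀ i : Fin n, c i.succ = 0) : rn α (replicate m (mxf k c)) = 0 := by
  rw [show mxf k c = pr k (c 0) from ext' fun V => by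
    rw [val_pr h0]
    exact val_mxf h0 fun j => Fin.cases le_rfl (fun j => by simp [h j]) j, rn_pr α hm]

theorem val_mxf_le (α : K →ₐ[k] L) {ι X : Type} [Fintype ι] [Fintype X] {c : ι → L} {u : X → L}
    {P : ι → X → K} (hc : ∀ i, c i = ∑ x, α (P i x) * u x) (h0 : ∃ i, c i ≠ 0) {w : RZ k L}
    (hw : dn α w = RZ.top k K) : (mxf k c).val w ≤ (mxf k u).val w := by
  obtain ⟨i, hi⟩ := exists_val_mxf (k := k) h0 w
  rw [← hi, hc]
  refine Valuation.map_sum_le _ fun x _ => ?_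
  rw [map_mul]
  exact (mul_le_of_le_one_left' (RZ.le_one_iff.2 (dn_top_iff.1 hw _))).trans (mem_Sec_mxf u x w)

/-- (d) -/
theorem ring_d (α : K →ₐ[k] L) {ι X : Type} [Fintype ι] [Fintype X] {c : ι → L} {u : X → L}
    {P : ι → X → K} {Q : X → ι → K} (hc : ∀ i, c i = ∑ x, α (P i x) * u x)
    (hu : ∀ x, u x = ∑ i, α (Q x i) * c i) (h0 : u ≠ 0) (m : ℕ) :
    rn α (replicate m (mxf k c)) = rn α (replicate m (mxf k u)) := by
  have h1 : ∃ x, u x ≠ 0 := Function.ne_iff.1 h0
  have h2 : ∃ i, c i ≠ 0 := by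
    by_contra! h3
    exact h0 (funext fun x => by simp [hu x, h3])
  exact rn_rep α (fun w hw => le_antisymm (val_mxf_le α hc h2 hw) (val_mxf_le α hu h1 hw)) m

end Rel

variable {B : Th} {E F : Type} [Field E] [Algebra ℂ E] [Field F] [Algebra ℂ F]
  [Algebra.EssFiniteType ℂ E] [Algebra.EssFiniteType ℂ F]

/-- integration along the fibres of an embedding -/
theorem fib_rn (hB : B.Ax) (β : E →ₐ[ℂ] F) (τ : B.H E) (l : List (BD ℂ F))
    (h : l.length + dim ℂ E ≤ dim ℂ F) :
    B.itg F (pc B l * B.pb (LP.hom β) τ) = rn β l * B.itg E τ := by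
  induction β using tower_ind with
  | h => rw [rn_tower, fib hB τ l h]

theorem itg_pow (hB : B.Ax) (β : E →ₐ[ℂ] F) (τ : B.H E) {m : ℕ} (hd : m + dim ℂ E ≤ dim ℂ F)
    (h : BD ℂ F) :
    B.itg F (B.c1 h ^ m * B.pb (LP.hom β) τ) = rn β (replicate m h) * B.itg E τ := by
  rw [← pc_replicate, fib_rn hB β τ _ (by simpa using hd)]

/-- (a) -/
theorem ring_a (hB : B.Ax) (β : E →ₐ[ℂ] F) {m : ℕ} {c : Fin (m + 1) → F} (τ : B.H E)
    (hd : dim ℂ F = dim ℂ E + m) {h : BD ℂ F} (hc : ∃ i : Fin m, c i.succ ≠ 0)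
    (hh : ∀ w : RZ ℂ F, dn β w = RZ.top ℂ E →
      h.val w = (mxf ℂ c - mxf ℂ fun i : Fin m => c i.succ).val w) :
    B.itg F (B.c1 h ^ m * B.pb (LP.hom β) τ) =
      (-1) ^ (m + 1) * rn β (replicate m (mxf ℂ c)) * B.itg E τ := by
  rw [itg_pow hB β τ (by omega), rn_rep β hh, rn_exc β hc]
  push_cast
  rfl

/-- (b) -/
theorem ring_b (hB : B.Ax) (β : E →ₐ[ℂ] F) {m : ℕ} (hm : 1 ≤ m) (τ : B.H E)
    (hd : dim ℂ F = dim ℂ E + m) {h : BD ℂ F}
    (hh : ∀ w : RZ ℂ F, dn β w = RZ.top ℂ E → h.val w = 1) :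
    B.itg F (B.c1 h ^ m * B.pb (LP.hom β) τ) = 0 := by
  rw [itg_pow hB β τ (by omega), rn_rep β (b := pr ℂ 1) (fun w hw => by
    rw [hh w hw, val_pr one_ne_zero, map_one]), rn_pr β hm, Int.cast_zero, zero_mul]

end Crest.Agent.X262.Emb40
end
end

-- ▼ part X262/Emb40/Val

/-!
# Row 262, EMB (helper40): the projection formula with a list which depends on the component

* `finsum_rel'` : `Div.finsum_rel` for a list `l V` which depends on the valuation of the base;
* `res_mxf`, `cw_mxf` : restriction of `mxf c` to a component;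
* `val_rel`, `val_far`, `sm_rel` : the contribution of a component over `V` in terms of `cw`.
-/

set_option autoImplicit false
set_option linter.unusedSectionVars false

noncomputable section

namespace Crest.Agent.X262.Emb40

open Crest.Agent.X277 Crest.Agent.X277.BD Crest.Agent.X277.Pst Crest.Agent.X277.BD.Cyc
open Crest.Agent.X262.Geo Crest.Agent.X262.Hb Crest.Agent.X262.Val40 Crest.Agent.X262.Tr89
open Crest.Agent.X262.Div (rn cw spec finsum_fib')
open List (replicate)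

variable {k K F : Type} [Field k] [Field K] [Field F] [Algebra k K] [Algebra k F] [CharZero k]
  [Algebra.EssFiniteType k K] [Algebra.EssFiniteType k F]

/-- **projection formula**, the list depends on the component of the base -/
theorem finsum_rel' {R : Type*} [CommRing R] [IsDomain R] [CharZero R] (α : K →ₐ[k] F)
    (l : RZ k K → List (BD k F)) (n : ℤ) (a : BD k K) (g : RZ k K → R) (g' : RZ k F → R)
    (hn : ∀ V, Dvs V → od V a ≠ 0 → g V ≠ 0 → rn α (l V) = n)
    (h : ∀ W, Dvs W → Dvs (dn α W) → od (dn α W) a ≠ 0 →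
      g' W = cw α (l (dn α W)) W * g (dn α W)) :
    ∑ᶠ (W) (_ : Dvs W), (od W (pb α a) : R) * g' W =
      n * ∑ᶠ (V) (_ : Dvs V), (od V a : R) * g V := by
  classical
  rw [← finsum_fib' (dn α)
    (fun W => if Dvs W then ((ram α W * cw α (l (dn α W)) W : ℤ) : R) else 0) _ fun V hV => ?_]
  · refine finsum_congr fun W => ?_
    rw [finsum_eq_if, finsum_eq_if]
    by_cases hW : Dvs W
    swap
    · rw [if_neg hW, if_neg hW, zero_mul]
    rw [if_pos hW, if_pos hW]
    by_cases h0 : (dn α W).1 = ⊤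
    · rw [od_pb_top hW h0, if_neg fun h1 => h1.ne_top h0, Int.cast_zero, zero_mul, mul_zero]
    rw [if_pos (dvs_dn hW h0), od_pb hW h0]
    by_cases h2 : od (dn α W) a = 0
    · simp [h2]
    · rw [h W hW (dvs_dn hW h0) h2]
      push_cast
      ring
  · have h2 : Dvs V := by
      by_contra h2
      exact hV (by rw [finsum_eq_if, if_neg h2])
    rw [finsum_eq_if, if_pos h2] at hV
    obtain ⟨T, t1, t2, t3⟩ := spec α (l V) h2
    refine ⟨T, fun W hW => (t1 W hW).2, fun W hW h3 => ?_, ?_⟩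
    · by_cases h4 : Dvs W
      · rw [if_pos h4, hW] at h3
        exact t2 W h4 hW fun h5 => h3 (by rw [h5, mul_zero, Int.cast_zero])
      · exact (h3 (if_neg h4)).elim
    · rw [← hn V h2 (Int.cast_ne_zero.1 (left_ne_zero_of_mul hV)) (right_ne_zero_of_mul hV), ← t3,
        Int.cast_sum]
      exact Finset.sum_congr rfl fun W hW => by rw [if_pos (t1 W hW).1, (t1 W hW).2]

/-- the restriction of `mxf c` is given by the residues of a primitive multiple -/
theorem res_mxf {E : Type} [Field E] [Algebra k E] (p : Pl k F k E) {ι : Type} [Fintype ι]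
    {c : ι → F} (hc : ∃ i, c i ≠ 0) {t : F} (h1 : p.V.v t = (mxf k c).val p.V) :
    p.res (mxf k c - pr k t) = mxf k fun j => p.r (c j / t) := by
  have hi := ne_of_val h1
  have h2 := Pl.val_sub_gen h1
  have h3 : ∀ j, c j / t ∈ p.V.1 := fun j => (RZ.le_iff hi).1 (h1 ▸ mem_Sec_mxf c j p.V)
  have h4 : ∀ j, c j / t ∈ (mxf k c - pr k t).Sec := fun j =>
    (mem_Sec_sub_pr hi).2 (by rw [div_mul_cancel₀ _ hi]; exact mem_Sec_mxf c j)
  have h5 : ∀ U : RZ k E, ∃ j, (p.cm U).v (c j / t) = (mxf k c - pr k t).val (p.cm U) :=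
    fun U => by
      obtain ⟨j, hj⟩ := exists_val_mxf (k := k) hc (p.cm U)
      exact ⟨j, by rw [map_div₀, hj, val_sub, val_pr hi]⟩
  refine eq_mxf (fun j U => ?_) fun U => ?_
  · obtain ⟨j', hj⟩ := h5 U
    rw [Pl.val_res h2 hj, ← Pl.v_le_iff (h3 j) (Pl.unit_of_gen h2 hj), hj]
    exact h4 j _
  · obtain ⟨j, hj⟩ := h5 U
    exact ⟨j, (Pl.val_res h2 hj).symm⟩

theorem cw_mxf (α : K →ₐ[k] F) {W : RZ k F} (hW : Dvs W) (hV : Dvs (dn α W)) {ι : Type} [Fintype ι]
    {c : ι → F} (hc : ∃ i, c i ≠ 0) {t : F} (h : W.v t = (mxf k c).val W) (m : ℕ) :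
    cw α (replicate m (mxf k c)) W =
      rn (rf α W) (replicate m (mxf k fun j => (plV W).r (c j / t))) := by
  have := essFT_Rf hW
  have := essFT_Rf hV
  rw [cw, List.map_replicate, ← res_mxf (plV W) hc h]
  refine Div.rn_congr _ ?_
  induction m with
  | zero => exact List.Forall₂.nil
  | succ m ih => exact List.Forall₂.cons (Pl.lin_rs (p := plV W) h) ih

theorem dn_cm_top (α : K →ₐ[k] F) (W : RZ k F) {U : RZ k (Rf W)}
    (h : dn (rf α W) U = RZ.top k _) : dn α ((plV W).cm U) = dn α W := by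
  rw [Div.dn_cm, h]
  exact Subtype.ext (ValuationSubring.ext _ _ fun x =>
    Pl.mem_cm.trans (and_iff_left (ValuationSubring.mem_top _)))

theorem v_lt_one {U V : RZ k F} (h : U.1 ≤ V.1) {x : F} (hx : V.v x < 1) : U.v x < 1 :=
  lt_of_not_ge fun h1 => hx.not_ge (by
    simpa using RZ.le_of_le h (x := 1) (y := x) (by simpa using h1))

section Val

variable {B : Th} {K L : Type} [Field K] [Algebra ℂ K] [Field L] [Algebra ℂ L]
  [Algebra.EssFiniteType ℂ K] [Algebra.EssFiniteType ℂ L] {m : ℕ} {H : BD ℂ L} {V : RZ ℂ L}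

theorem dim_rf' (α : K →ₐ[ℂ] L) (hd : dim ℂ L = dim ℂ K + m) (hV : Dvs V) (hW : Dvs (dn α V)) :
    dim ℂ (Rf V) = dim ℂ (Rf (dn α V)) + m := by
  have h1 := dim_Rf' hV
  have h2 := dim_Rf' hW
  omega

/-- the components over a place with a lift of another degree -/
theorem val_far (hB : B.Ax) (α : K →ₐ[ℂ] L) (hd : dim ℂ L = dim ℂ K + m) (hm : 1 ≤ m) (hV : Dvs V)
    (hW : Dvs (dn α V)) (τ : B.H (Rf (dn α V)))
    (h : ∀ p : RZ ℂ L, dn α p = dn α V → H.val p = 1) :
    B.itg (Rf V) (B.c1 ((plV V).res H) ^ m * B.pb (LP.hom (rf α V)) τ) = 0 := by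
  have := essFT_Rf hV
  have := essFT_Rf hW
  refine ring_b hB _ hm τ (dim_rf' α hd hV hW) fun U hU => ?_
  rw [Pl.val_res (p := plV V) (g := 1) (h V rfl) (by rw [h _ (dn_cm_top α V hU), map_one]),
    Pl.r_one, map_one]

open Classical in
/-- the components over a place with a lift of the given degree -/
theorem val_rel (hB : B.Ax) (α : K →ₐ[ℂ] L) (hd : dim ℂ L = dim ℂ K + m) (hm : 1 ≤ m) (hV : Dvs V)
    (hW : Dvs (dn α V)) (τ : B.H (Rf (dn α V))) (c : Fin (m + 1) → L) (hc : ∀ i, c i ≠ 0)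
    (h : ∀ p : RZ ℂ L, dn α p = dn α V →
      (H.val p = 1 ↔ (mxf ℂ c - mxf ℂ fun i => c (Fin.succ i)).val p = 1) ∧
      ((∀ x, (dn α V).v x < 1 → p.v (α x) * (mxf ℂ c - mxf ℂ fun i => c (Fin.succ i)).val p < 1) →
        H.val p = (mxf ℂ c - mxf ℂ fun i => c (Fin.succ i)).val p)) :
    (if H.val V = 1 then
        (-1) ^ (m + 1) * B.itg (Rf V) (B.c1 ((plV V).res H) ^ m * B.pb (LP.hom (rf α V)) τ)
      else 0) = cw α (replicate m (mxf ℂ c)) V * B.itg (Rf (dn α V)) τ := by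
  have := essFT_Rf hV
  have := essFT_Rf hW
  have h0 : ∃ i : Fin m, c i.succ ≠ 0 := ⟨⟨0, hm⟩, hc _⟩
  obtain ⟨i, hi⟩ := exists_val_mxf (k := ℂ) ⟨0, hc 0⟩ V
  obtain ⟨j, hj⟩ := exists_val_mxf (k := ℂ) (s := fun i : Fin m => c i.succ) h0 V
  have h1 : ∀ l, (plV V).r (c l / c i) ≠ 0 ↔ V.v (c l) = V.v (c i) := fun l => by
    rw [Pl.r_ne_zero_iff, map_div₀]
    exact div_eq_one_iff_eq (RZ.ne_zero_iff.2 (hc i))
  rw [cw_mxf α hV hW ⟨0, hc 0⟩ hi]
  split_ifs with hH
  · have h2 := (h V rfl).1.1 hH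
    have h3 : V.v (c i) = (mxf ℂ fun i : Fin m => c i.succ).val V := by
      rw [val_sub, div_eq_one_iff_eq (val_ne _ _)] at h2
      exact hi.trans h2
    rw [ring_a hB (rf α V) (c := fun l => (plV V).r (c l / c i)) τ (dim_rf' α hd hV hW)
      ⟨j, (h1 _).2 (hj.trans h3.symm)⟩ fun U hU => ?_, ← mul_assoc, ← mul_assoc, ← mul_pow]
    · simp
    have h4 := v_gen (mxf ℂ c - mxf ℂ fun i => c (Fin.succ i)) ((plV V).cm U)
    have h5 := (h _ (dn_cm_top α V hU)).2 fun x hx => by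
      rw [← h4, ← map_mul]
      refine v_lt_one (Pl.cm_le (p := plV V) U) ?_
      rw [map_mul, Pl.unit_of_gen (p := plV V) h2 h4, mul_one]
      exact v_dn_lt_one.1 hx
    rw [← res_mxf (plV V) ⟨0, hc 0⟩ hi, ← res_mxf (plV V) (c := fun i : Fin m => c i.succ) h0 h3,
      ← Pl.res_sub (p := plV V) (Pl.val_sub_gen (p := plV V) hi) (Pl.val_sub_gen (p := plV V) h3),
      sub_sub_sub_cancel_right, Pl.val_res (p := plV V) h2 h4,
      Pl.val_res (p := plV V) hH (h4.trans h5.symm)]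
  · have h2 : ∀ l : Fin m, (plV V).r (c l.succ / c i) = 0 := fun l => by
      by_contra h3
      refine hH ((h V rfl).1.2 ?_)
      rw [val_sub, div_eq_one_iff_eq (val_ne _ _)]
      refine le_antisymm ?_ (hj ▸ mem_Sec_mxf c j.succ V)
      rw [← hi, ← (h1 _).1 h3]
      exact mem_Sec_mxf (k := ℂ) (fun i : Fin m => c i.succ) l V
    rw [ring_c (rf α V) hm (c := fun l => (plV V).r (c l / c i)) ?_ h2, Int.cast_zero, zero_mul]
    have h3 := (h1 i).2 rfl
    rcases Fin.eq_zero_or_eq_succ i with rfl | ⟨l, rfl⟩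
    exacts [h3, absurd (h2 l) h3]

/-- the projection formula -/
theorem sm_rel (α : K →ₐ[ℂ] L) (l : RZ ℂ K → List (BD ℂ L)) (ρ : ℤ) (a : BD ℂ K) (g : RZ ℂ K → ℂ)
    (g' : RZ ℂ L → ℂ) (h1 : ∀ W, Dvs W → od W a ≠ 0 → g W ≠ 0 → rn α (l W) = ρ)
    (h2 : ∀ V, Dvs V → Dvs (dn α V) → od (dn α V) a ≠ 0 →
      g' V = cw α (l (dn α V)) V * g (dn α V)) :
    Sym65.sm (pb α a) g' = ρ * Sym65.sm a g :=
  finsum_rel' α l ρ a g g' h1 h2

end Val

end Crest.Agent.X262.Emb40
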